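import Vale.Agent.P039.H419.Side

/-! The count of the corners of a simple cycle (Step 2). -/

namespace Vale.Agent.P039.H419

open Vale.Agent.P039.Bn

variable {B W V : Type} [Fintype B] [Fintype W] [Fintype V] [DecidableEq B] [DecidableEq W]
  [DecidableEq V]

/-- `I` is a union of sides of the cycle. -/
structure Sides (M : PMap B W V) (S : Finset B) (f g : B → Fin 3) (I : Finset W) : Prop where
  off : ∀ b, b ∉ S → ∀ i i', M.e i b ∈ I → M.e i' b ∈ I
  onF : ∀ b ∈ S, (M.e (f b + 1) b ∈ I ↔ M.e (f b + 2) b ∉ I)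
  onG : ∀ b ∈ S, (M.e (g b + 1) b ∈ I ↔ M.e (g b + 2) b ∉ I)
  third : ∀ b ∈ S, ∀ j, j ≠ f b → j ≠ g b → (M.e (j + 1) b ∈ I ↔ M.e (j + 2) b ∈ I)

section

variable {M : PMap B W V} {S : Finset B} {f g : B → Fin 3} {π : Equiv.Perm B} {I : Finset W}

theorem Sides.compl (h : Sides M S f g I) : Sides M S f g Iᶜ := by
  refine ⟨?_, ?_, ?_, ?_⟩
  · intro b hb i i' h1
    rw [Finset.mem_compl] at h1 ⊢
    exact fun h2 => h1 (h.off b hb i' i h2)
  · intro b hb
    have := h.onF b hb
    rw [Finset.mem_compl, Finset.mem_compl]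
    tauto
  · intro b hb
    have := h.onG b hb
    rw [Finset.mem_compl, Finset.mem_compl]
    tauto
  · intro b hb j h1 h2
    have := h.third b hb j h1 h2
    rw [Finset.mem_compl, Finset.mem_compl]
    tauto

theorem mem_BI {b : B} : b ∈ BI M I ↔ ∃ i, M.e i b ∈ I := by
  simp [BI]

theorem mem_VI {v : V} : v ∈ VI M I ↔ ∃ j b, M.c j b = v ∧ M.e (j + 1) b ∈ I := by
  simp [VI]

theorem mem_EI {e : Fin 3 × B} :
    e ∈ EI M I ↔ M.e (e.1 + 1) e.2 ∈ I ∨ M.e (e.1 + 2) e.2 ∈ I := by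
  simp [EI]

theorem mem_VI1 {j : Fin 3} {b : B} (h : M.e (j + 1) b ∈ I) : M.c j b ∈ VI M I :=
  mem_VI.2 ⟨j, b, rfl, h⟩

theorem mem_VI2 {j : Fin 3} {b : B} (h : M.e (j + 2) b ∈ I) : M.c j b ∈ VI M I :=
  mem_VI.2 ⟨j, M.rho j b, M.c_rho j b, by rw [M.e_rho]; exact h⟩

/-- the faces of the cycle -/
def VC (M : PMap B W V) (S : Finset B) (f : B → Fin 3) : Finset V := S.image fun b => M.c (f b) b

omit [Fintype B] [Fintype W] [Fintype V] [DecidableEq W] in
theorem Cy.g_mem_VC (h : Cy M S f g π) {b : B} (hb : b ∈ S) : M.c (g b) b ∈ VC M S f := by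
  obtain ⟨b', hb', h1⟩ := h.cyc.1.surjOn hb
  refine Finset.mem_image.2 ⟨b', hb', ?_⟩
  rw [← h.nxt b' hb', h1]

theorem face_step (h : Cy M S f g π) (hs : Sides M S f g I) {j : Fin 3} {b : B}
    (hv : M.c j b ∉ VC M S f) : (M.e (j + 1) b ∈ I ↔ M.e (j + 2) b ∈ I) := by
  by_cases hb : b ∈ S
  · apply hs.third b hb
    · rintro rfl
      exact hv (Finset.mem_image.2 ⟨b, hb, rfl⟩)
    · rintro rfl
      exact hv (h.g_mem_VC hb)
  · exact ⟨hs.off b hb _ _, hs.off b hb _ _⟩

theorem face_all (h : Cy M S f g π) (hs : Sides M S f g I) {j j' : Fin 3} {b b' : B}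
    (hv : M.c j b ∉ VC M S f) (hbb : M.c j b = M.c j' b') :
    (M.e (j + 1) b ∈ I ↔ M.e (j + 1) b' ∈ I) := by
  obtain rfl := M.cls _ _ _ _ hbb
  obtain ⟨n, rfl⟩ := (M.same_iff j b b').1 hbb
  clear hbb
  induction n with
  | zero => exact Iff.rfl
  | succ n ih =>
    rw [ih, pow_succ', Equiv.Perm.mul_apply, M.e_rho]
    apply face_step h hs
    rw [M.c_rho_pow]
    exact hv

theorem S_sub_BI (hs : Sides M S f g I) {b : B} (hb : b ∈ S) : b ∈ BI M I := by
  rw [mem_BI]
  by_cases h1 : M.e (f b + 2) b ∈ I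
  · exact ⟨_, h1⟩
  · exact ⟨_, (hs.onF b hb).2 h1⟩

theorem CF_sub_EI (hs : Sides M S f g I) {b : B} (hb : b ∈ S) : (f b, b) ∈ EI M I := by
  rw [mem_EI]
  by_cases h1 : M.e (f b + 2) b ∈ I
  · exact Or.inr h1
  · exact Or.inl ((hs.onF b hb).2 h1)

theorem CG_sub_EI (hs : Sides M S f g I) {b : B} (hb : b ∈ S) : (g b, b) ∈ EI M I := by
  rw [mem_EI]
  by_cases h1 : M.e (g b + 2) b ∈ I
  · exact Or.inr h1
  · exact Or.inl ((hs.onG b hb).2 h1)

theorem side_ineq (hM : M.Conn) (h : Cy M S f g π) (hs : Sides M S f g I) {b1 : B}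
    (hb1 : b1 ∈ S) {w1 : W} (hw1 : w1 ∉ I) :
    I.card + (BI M I).card + (VI M I).card ≤ (EI M I).card + 1 := by
  refine euler_region hM I hw1 b1 (S_sub_BI hs hb1) ?_
  intro α φ h0 h1
  have hf : ∀ b ∈ S, α b = φ (M.c (f b) b) := fun b hb => by
    have := h0 _ (CF_sub_EI hs hb)
    unfold dl at this
    simp only at this
    linarith
  have hg : ∀ b ∈ S, α b = φ (M.c (g b) b) := fun b hb => by
    have := h0 _ (CG_sub_EI hs hb)
    unfold dl at this
    simp only at this
    linarith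
  have hpi : ∀ b ∈ S, α (π b) = α b := fun b hb => by
    rw [hg _ (h.mapsTo hb), h.nxt b hb, ← hf b hb]
  have hS : ∀ b ∈ S, α b = 0 := by
    intro b hb
    have key : ∀ (m : ℕ), (π ^ m) b1 ∈ S ∧ α ((π ^ m) b1) = α b1 := by
      intro m
      induction m with
      | zero => exact ⟨hb1, rfl⟩
      | succ m ih =>
        rw [pow_succ', Equiv.Perm.mul_apply]
        exact ⟨h.mapsTo ih.1, (hpi _ ih.1).trans ih.2⟩
    obtain ⟨m, hm⟩ := (h.cyc.2 hb1 hb).exists_nat_pow_eq
    have := (key m).2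
    rw [hm, h1] at this
    exact this
  have hVC : ∀ v ∈ VC M S f, φ v = 0 := by
    intro v hv
    obtain ⟨b, hb, rfl⟩ := Finset.mem_image.1 hv
    rw [← hf b hb]
    exact hS b hb
  let α' : B → ℝ := fun b => if b ∈ BI M I then α b else 0
  let φ' : V → ℝ := fun v => if v ∈ VI M I then φ v else 0
  have hd : ∀ e, dl M α' φ' e = 0 := by
    rintro ⟨j, b⟩
    by_cases he : (j, b) ∈ EI M I
    · have hb : b ∈ BI M I := by
        rcases mem_EI.1 he with h2 | h2
        · exact mem_BI.2 ⟨_, h2⟩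
        · exact mem_BI.2 ⟨_, h2⟩
      have hv : M.c j b ∈ VI M I := by
        rcases mem_EI.1 he with h2 | h2
        · exact mem_VI1 h2
        · exact mem_VI2 h2
      have := h0 _ he
      unfold dl at this ⊢
      simp only [α', φ', hb, hv, if_true]
      exact this
    · have h2 : α' b = 0 := by
        show (if b ∈ BI M I then α b else 0) = 0
        split_ifs with hb
        · by_cases hbS : b ∈ S
          · exact hS b hbS
          · exfalso
            obtain ⟨i, hi⟩ := mem_BI.1 hb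
            exact he (mem_EI.2 (Or.inl (hs.off b hbS i _ hi)))
        · rfl
      have h3 : φ' (M.c j b) = 0 := by
        show (if M.c j b ∈ VI M I then φ (M.c j b) else 0) = 0
        split_ifs with hv
        · by_cases hvC : M.c j b ∈ VC M S f
          · exact hVC _ hvC
          · exfalso
            obtain ⟨j', b', h4, h5⟩ := mem_VI.1 hv
            obtain rfl := M.cls _ _ _ _ h4
            exact he (mem_EI.2 (Or.inl ((face_all h hs hvC h4.symm).2 h5)))
        · rfl
      unfold dl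
      simp only
      rw [h2, h3, sub_zero]
  have hc := dl_const M hM α' φ' hd
  have h2 : α' b1 = 0 := by
    show (if b1 ∈ BI M I then α b1 else 0) = 0
    rw [h1]; simp
  constructor
  · intro b hb
    have h3 : α' b = 0 := (hc b b1).trans h2
    have h4 : α' b = α b := by show (if b ∈ BI M I then α b else 0) = α b; rw [if_pos hb]
    rw [← h4, h3]
  · intro v hv
    obtain ⟨j, b, rfl, _⟩ := mem_VI.1 hv
    have h3 : α' b = 0 := (hc b b1).trans h2
    have h4 : φ' (M.c j b) = φ (M.c j b) := by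
      show (if M.c j b ∈ VI M I then φ (M.c j b) else 0) = φ (M.c j b)
      rw [if_pos hv]
    have h5 := hd (j, b)
    unfold dl at h5
    simp only at h5
    rw [← h4]
    linarith

/-! ### sums over the two sides -/

theorem card_BI_add (hs : Sides M S f g I) :
    (BI M I).card + (BI M Iᶜ).card = Fintype.card B + S.card := by
  rw [← Finset.card_union_add_card_inter]
  congr 1
  · rw [← Finset.card_univ]
    congr 1
    ext b
    simp only [Finset.mem_union, mem_BI, Finset.mem_univ, iff_true]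
    by_cases h1 : M.e 0 b ∈ I
    · exact Or.inl ⟨_, h1⟩
    · exact Or.inr ⟨_, Finset.mem_compl.2 h1⟩
  · congr 1
    ext b
    rw [Finset.mem_inter]
    constructor
    · rintro ⟨h1, h2⟩
      by_contra hb
      obtain ⟨i, hi⟩ := mem_BI.1 h1
      obtain ⟨i', hi'⟩ := mem_BI.1 h2
      exact (Finset.mem_compl.1 hi') (hs.off b hb _ _ hi)
    · intro hb
      exact ⟨S_sub_BI hs hb, S_sub_BI hs.compl hb⟩

theorem card_VC (h : Cy M S f g π) : (VC M S f).card = S.card :=
  Finset.card_image_of_injOn fun b hb b' hb' hbb => h.inj b hb b' hb' hbb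

theorem card_VI_add (h : Cy M S f g π) (hs : Sides M S f g I) :
    (VI M I).card + (VI M Iᶜ).card = Fintype.card V + S.card := by
  rw [← Finset.card_union_add_card_inter, ← card_VC h]
  congr 1
  · rw [← Finset.card_univ]
    congr 1
    ext v
    simp only [Finset.mem_union, Finset.mem_univ, iff_true]
    obtain ⟨j, b, rfl⟩ := M.surj v
    by_cases h1 : M.e (j + 1) b ∈ I
    · exact Or.inl (mem_VI1 h1)
    · exact Or.inr (mem_VI1 (Finset.mem_compl.2 h1))
  · congr 1
    ext v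
    rw [Finset.mem_inter]
    constructor
    · rintro ⟨h1, h2⟩
      by_contra hb
      obtain ⟨j, b, rfl, h3⟩ := mem_VI.1 h1
      obtain ⟨j', b', h4, h5⟩ := mem_VI.1 h2
      obtain rfl := M.cls _ _ _ _ h4
      exact (Finset.mem_compl.1 h5) ((face_all h hs hb h4.symm).1 h3)
    · intro hv
      obtain ⟨b, hb, rfl⟩ := Finset.mem_image.1 hv
      by_cases h1 : M.e (f b + 2) b ∈ I
      · refine ⟨mem_VI2 h1, mem_VI1 (Finset.mem_compl.2 ?_)⟩
        exact fun h2 => (hs.onF b hb).1 h2 h1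
      · exact ⟨mem_VI1 ((hs.onF b hb).2 h1), mem_VI2 (Finset.mem_compl.2 h1)⟩

theorem card_EI_add (h : Cy M S f g π) (hs : Sides M S f g I) :
    (EI M I).card + (EI M Iᶜ).card = 3 * Fintype.card B + 2 * S.card := by
  rw [← Finset.card_union_add_card_inter]
  congr 1
  · have : (3 * Fintype.card B) = Fintype.card (Fin 3 × B) := by
      rw [Fintype.card_prod, Fintype.card_fin]
    rw [this, ← Finset.card_univ]
    congr 1
    ext e
    simp only [Finset.mem_union, mem_EI, Finset.mem_univ, iff_true, Finset.mem_compl]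
    tauto
  · have h1 : EI M I ∩ EI M Iᶜ = S.image (fun b => (f b, b)) ∪ S.image (fun b => (g b, b)) := by
      ext ⟨j, b⟩
      rw [Finset.mem_inter, Finset.mem_union, Finset.mem_image, Finset.mem_image]
      constructor
      · rintro ⟨h1, h2⟩
        rw [mem_EI] at h1 h2
        rw [Finset.mem_compl, Finset.mem_compl] at h2
        simp only at h1 h2
        by_cases hb : b ∈ S
        · by_cases hf : j = f b
          · exact Or.inl ⟨b, hb, by rw [hf]⟩
          · by_cases hg : j = g b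
            · exact Or.inr ⟨b, hb, by rw [hg]⟩
            · have := hs.third b hb j hf hg
              tauto
        · have h3 := hs.off b hb (j + 1) (j + 2)
          have h4 := hs.off b hb (j + 2) (j + 1)
          tauto
      · rintro (⟨b', hb', h1⟩ | ⟨b', hb', h1⟩)
        · rw [← h1]
          exact ⟨CF_sub_EI hs hb', CF_sub_EI hs.compl hb'⟩
        · rw [← h1]
          exact ⟨CG_sub_EI hs hb', CG_sub_EI hs.compl hb'⟩
    rw [h1, Finset.card_union_of_disjoint, Finset.card_image_of_injective,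
      Finset.card_image_of_injective, two_mul]
    · intro b b' hbb
      exact (Prod.ext_iff.1 hbb).2
    · intro b b' hbb
      exact (Prod.ext_iff.1 hbb).2
    · rw [Finset.disjoint_left]
      intro e h2 h3
      obtain ⟨b, hb, rfl⟩ := Finset.mem_image.1 h2
      obtain ⟨b', hb', h4⟩ := Finset.mem_image.1 h3
      obtain ⟨h5, h6⟩ := Prod.ext_iff.1 h4
      simp only at h5 h6
      subst h6
      exact h.ne b' hb' h5.symm

/-- **Euler's formula** for the closed side `I`. -/
theorem side_eq (hM : M.Sph) (h : Cy M S f g π) (hs : Sides M S f g I) {b1 : B}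
    (hb1 : b1 ∈ S) :
    I.card + (BI M I).card + (VI M I).card = (EI M I).card + 1 := by
  have hI : ∃ w, w ∉ I := by
    by_cases h1 : M.e (f b1 + 2) b1 ∈ I
    · exact ⟨_, fun h2 => (hs.onF b1 hb1).1 h2 h1⟩
    · exact ⟨_, h1⟩
  have hI' : ∃ w, w ∉ Iᶜ := by
    by_cases h1 : M.e (f b1 + 2) b1 ∈ I
    · exact ⟨_, fun h2 => Finset.mem_compl.1 h2 h1⟩
    · exact ⟨_, fun h2 => Finset.mem_compl.1 h2 ((hs.onF b1 hb1).2 h1)⟩
  obtain ⟨w1, hw1⟩ := hI
  obtain ⟨w2, hw2⟩ := hI'
  have e1 := side_ineq hM.conn h hs hb1 hw1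
  have e2 := side_ineq hM.conn h hs.compl hb1 hw2
  have e3 := card_BI_add hs
  have e4 := card_VI_add h hs
  have e5 := card_EI_add h hs
  have e6 := Finset.card_add_card_compl I
  have e7 : Fintype.card W = Fintype.card B := (Fintype.card_congr (M.e 0)).symm
  have e8 := hM.card
  omega

/-! ### the balance of a matching -/

theorem balanced (h : Cy M S f g π) (hs : Sides M S f g I) (b0 : B) (m : B → Fin 3)
    (h0 : ∀ i, M.e i b0 ∉ I) (hb0 : b0 ∉ S) (hm : ∀ b ∈ S, m b = f b)
    (hinj : ∀ b b', b ≠ b0 → b' ≠ b0 → M.c (m b) b = M.c (m b') b' → b = b')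
    (hR : ∀ b, b ≠ b0 → ∀ j, M.c j b0 ≠ M.c (m b) b)
    (hsurj : ∀ v, (∀ j, M.c j b0 ≠ v) → ∃ b, b ≠ b0 ∧ M.c (m b) b = v) :
    (BI M I).card = (VI M I).card := by
  have hne : ∀ b ∈ BI M I, b ≠ b0 := by
    rintro b hb rfl
    obtain ⟨i, hi⟩ := mem_BI.1 hb
    exact h0 i hi
  have hVCm : ∀ v ∈ VC M S f, ∃ b ∈ S, b ≠ b0 ∧ M.c (m b) b = v := by
    intro v hv
    obtain ⟨b, hb, rfl⟩ := Finset.mem_image.1 hv
    exact ⟨b, hb, fun h' => hb0 (h' ▸ hb), by rw [hm b hb]⟩
  refine Finset.card_nbij (fun b => M.c (m b) b) ?_ ?_ ?_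
  · intro b hb
    by_cases hbS : b ∈ S
    · show M.c (m b) b ∈ VI M I
      rw [hm b hbS]
      by_cases h1 : M.e (f b + 2) b ∈ I
      · exact mem_VI2 h1
      · exact mem_VI1 ((hs.onF b hbS).2 h1)
    · obtain ⟨i, hi⟩ := mem_BI.1 hb
      exact mem_VI1 (hs.off b hbS _ _ hi)
  · intro b hb b' hb' hbb
    exact hinj b b' (hne b hb) (hne b' hb') hbb
  · intro v hv
    obtain ⟨j, b, hjb, hI⟩ := mem_VI.1 hv
    have hv0 : ∀ i, M.c i b0 ≠ v := by
      intro i hi
      have hvC : v ∉ VC M S f := by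
        intro hvC
        obtain ⟨b', _, h1, h2⟩ := hVCm v hvC
        exact hR b' h1 i (hi.trans h2.symm)
      have h1 : M.c j b = M.c i b0 := hjb.trans hi.symm
      exact h0 (j + 1) ((face_all h hs (by rw [hjb]; exact hvC) h1).1 hI)
    obtain ⟨b', h1, h2⟩ := hsurj v hv0
    refine ⟨b', ?_, h2⟩
    show b' ∈ BI M I
    by_cases hvC : v ∈ VC M S f
    · obtain ⟨b'', h3, h4, h5⟩ := hVCm v hvC
      obtain rfl := hinj b' b'' h1 h4 (h2.trans h5.symm)
      exact S_sub_BI hs h3
    · have h3 : M.c j b = M.c (m b') b' := hjb.trans h2.symm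
      exact mem_BI.2 ⟨_, (face_all h hs (by rw [hjb]; exact hvC) h3).1 hI⟩

end

end Vale.Agent.P039.H419
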