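import Vale.Agent.P039.Bn.Defs
import Mathlib.Data.Real.Basic
import Mathlib.LinearAlgebra.Dimension.Constructions
import Mathlib.LinearAlgebra.FiniteDimensional.Lemmas
import Mathlib.GroupTheory.Perm.Cycle.Basic
import Mathlib.Tactic

/-! The complex of the hexagons (white vertices), corners and corner-graph vertices of a spherical
web: every cycle of corners is a boundary; the two sides of a simple cycle; the count of Step 2. -/

namespace Vale.Agent.P039.H419

open Vale.Agent.P039.Bn

variable {B W V : Type} [Fintype B] [Fintype W] [Fintype V]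

section Basic

variable (M : PMap B W V)

/-- boundary of a 2-chain -/
def bd (n : W → ℝ) (e : Fin 3 × B) : ℝ := n (M.e (e.1 + 1) e.2) - n (M.e (e.1 + 2) e.2)

/-- coboundary of a function on the vertices -/
def dl (α : B → ℝ) (φ : V → ℝ) (e : Fin 3 × B) : ℝ := α e.2 - φ (M.c e.1 e.2)

/-- cycles -/
structure IsCyc (x : Fin 3 × B → ℝ) : Prop where
  row : ∀ b, ∑ j, x (j, b) = 0
  col : ∀ φ : V → ℝ, ∑ e : Fin 3 × B, φ (M.c e.1 e.2) * x e = 0

theorem sum3 (F : Fin 3 → ℝ) : ∑ j, F j = F 0 + F 1 + F 2 := Fin.sum_univ_three F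

theorem bd_row (n : W → ℝ) (b : B) : ∑ j, bd M n (j, b) = 0 := by
  rw [sum3]
  show (n (M.e 1 b) - n (M.e 2 b)) + (n (M.e 2 b) - n (M.e 0 b)) + (n (M.e 0 b) - n (M.e 1 b)) = 0
  ring

theorem bd_col (n : W → ℝ) (φ : V → ℝ) : ∑ e : Fin 3 × B, φ (M.c e.1 e.2) * bd M n e = 0 := by
  rw [Fintype.sum_prod_type]
  apply Finset.sum_eq_zero
  intro j _
  have h1 : ∑ b, φ (M.c j b) * n (M.e (j + 1) b) = ∑ w, φ (M.cw j w) * n w := by
    rw [← Equiv.sum_comp (M.e (j + 1)) fun w => φ (M.cw j w) * n w]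
    exact Finset.sum_congr rfl fun b _ => by rw [M.cw_e1]
  have h2 : ∑ b, φ (M.c j b) * n (M.e (j + 2) b) = ∑ w, φ (M.cw j w) * n w := by
    rw [← Equiv.sum_comp (M.e (j + 2)) fun w => φ (M.cw j w) * n w]
    exact Finset.sum_congr rfl fun b _ => by rw [M.cw_e2]
  calc ∑ b, φ (M.c j b) * bd M n (j, b)
      = ∑ b, φ (M.c j b) * n (M.e (j + 1) b) - ∑ b, φ (M.c j b) * n (M.e (j + 2) b) := by
        rw [← Finset.sum_sub_distrib]
        exact Finset.sum_congr rfl fun b _ => by unfold bd; ring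
    _ = 0 := by rw [h1, h2, sub_self]

theorem bd_isCyc (n : W → ℝ) : IsCyc M (bd M n) := ⟨bd_row M n, bd_col M n⟩

/-- cycles are orthogonal to coboundaries -/
theorem IsCyc.orth {M : PMap B W V} {x : Fin 3 × B → ℝ} (hx : IsCyc M x) (α : B → ℝ) (φ : V → ℝ) :
    ∑ e : Fin 3 × B, x e * dl M α φ e = 0 := by
  have h1 : ∑ e : Fin 3 × B, α e.2 * x e = 0 := by
    rw [Fintype.sum_prod_type_right]
    apply Finset.sum_eq_zero
    intro b _
    show ∑ j, α b * x (j, b) = 0
    rw [← Finset.mul_sum, hx.row, mul_zero]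
  calc ∑ e : Fin 3 × B, x e * dl M α φ e
      = ∑ e : Fin 3 × B, α e.2 * x e - ∑ e : Fin 3 × B, φ (M.c e.1 e.2) * x e := by
        rw [← Finset.sum_sub_distrib]
        exact Finset.sum_congr rfl fun e _ => by unfold dl; ring
    _ = 0 := by rw [h1, hx.col, sub_self]

omit [Fintype B] [Fintype W] [Fintype V] in
/-- connectedness of the corner graph -/
theorem dl_const (hc : M.Conn) (α : B → ℝ) (φ : V → ℝ) (h : ∀ e, dl M α φ e = 0) (b b' : B) :
    α b = α b' := by
  have key : ∀ x y : B, Relation.EqvGen (fun x y => ∃ j, M.c j x = M.c j y) x y → α x = α y := by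
    intro x y hxy
    induction hxy with
    | rel x y h1 =>
      obtain ⟨j, hj⟩ := h1
      have h2 := h (j, x)
      have h3 := h (j, y)
      unfold dl at h2 h3
      simp only at h2 h3
      rw [hj] at h2
      linarith
    | refl x => rfl
    | symm x y _ ih => exact ih.symm
    | trans x y z _ _ ih1 ih2 => exact ih1.trans ih2
  exact key b b' (hc b b')

omit [Fintype B] [Fintype W] [Fintype V] in
theorem bd_at (n : W → ℝ) (b : B) (h : ∀ j, bd M n (j, b) = 0) (i i' : Fin 3) :
    n (M.e i b) = n (M.e i' b) := by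
  have h0 : n (M.e 1 b) - n (M.e 2 b) = 0 := h 0
  have h1 : n (M.e 2 b) - n (M.e 0 b) = 0 := h 1
  have h2 : n (M.e 0 b) - n (M.e 1 b) = 0 := h 2
  fin_cases i <;> fin_cases i' <;> simp only [Fin.zero_eta, Fin.mk_one, Fin.reduceFinMk] <;> linarith

omit [Fintype B] [Fintype W] [Fintype V] in
/-- connectedness of the dual graph, for a property that propagates -/
theorem conn_induct [Finite B] (hc : M.Conn) (P : B → Prop)
    (hP : ∀ b b' i i', M.e i b = M.e i' b' → P b → P b') (b b' : B) (hb : P b) : P b' := by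
  have step : ∀ j b, P b ↔ P (M.rho j b) := by
    intro j b
    exact ⟨hP b (M.rho j b) (j + 2) (j + 1) (M.e_rho j b).symm,
      hP (M.rho j b) b (j + 1) (j + 2) (M.e_rho j b)⟩
  have steps : ∀ j (n : ℕ) b, P b ↔ P ((M.rho j ^ n) b) := by
    intro j n
    induction n with
    | zero => intro b; exact Iff.rfl
    | succ n ih => intro b; rw [pow_succ', Equiv.Perm.mul_apply, ← step]; exact ih b
  have key : ∀ x y : B, Relation.EqvGen (fun x y => ∃ j, M.c j x = M.c j y) x y → (P x ↔ P y) := by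
    intro x y hxy
    induction hxy with
    | rel x y h1 =>
      obtain ⟨j, hj⟩ := h1
      obtain ⟨n, hn⟩ := (M.same_iff j x y).1 hj
      rw [← hn]
      exact steps j n x
    | refl x => exact Iff.rfl
    | symm x y _ ih => exact ih.symm
    | trans x y z _ _ ih1 ih2 => exact ih1.trans ih2
  exact (key b b' (hc b b')).1 hb

omit [Fintype B] [Fintype W] [Fintype V] in
theorem bd_const [Finite B] (hc : M.Conn) (n : W → ℝ) (h : ∀ e, bd M n e = 0) (w w' : W) :
    n w = n w' := by
  have h1 := conn_induct M hc (fun b => n (M.e 0 b) = n w) (by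
    intro b b' i i' hi hb
    show n (M.e 0 b') = n w
    rw [bd_at M n b' (fun j => h (j, b')) 0 i', ← hi, bd_at M n b (fun j => h (j, b)) i 0]
    exact hb) ((M.e 0).symm w) ((M.e 0).symm w') (by
      show n (M.e 0 ((M.e 0).symm w)) = n w
      rw [Equiv.apply_symm_apply])
  have h2 : n (M.e 0 ((M.e 0).symm w')) = n w := h1
  rw [Equiv.apply_symm_apply] at h2
  exact h2.symm

/-- `bd` as a linear map -/
def bdL : (W → ℝ) →ₗ[ℝ] (Fin 3 × B → ℝ) where
  toFun n := bd M n
  map_add' x y := by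
    funext e
    show (x _ + y _) - (x _ + y _) = (x _ - x _) + (y _ - y _)
    ring
  map_smul' a x := by
    funext e
    show a * x _ - a * x _ = a * (x _ - x _)
    ring

def dlL : ((B → ℝ) × (V → ℝ)) →ₗ[ℝ] (Fin 3 × B → ℝ) where
  toFun p := dl M p.1 p.2
  map_add' x y := by
    funext e
    show (x.1 _ + y.1 _) - (x.2 _ + y.2 _) = (x.1 _ - x.2 _) + (y.1 _ - y.2 _)
    ring
  map_smul' a x := by
    funext e
    show a * x.1 _ - a * x.2 _ = a * (x.1 _ - x.2 _)
    ring

theorem bd_add_dl_eq_zero (n : W → ℝ) (α : B → ℝ) (φ : V → ℝ)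
    (h : ∀ e, bd M n e + dl M α φ e = 0) : (∀ e, bd M n e = 0) ∧ ∀ e, dl M α φ e = 0 := by
  have h1 := (bd_isCyc M n).orth α φ
  have h2 : ∑ e, bd M n e * bd M n e = 0 := by
    calc ∑ e, bd M n e * bd M n e = - ∑ e, bd M n e * dl M α φ e := by
          rw [← Finset.sum_neg_distrib]
          refine Finset.sum_congr rfl fun e _ => ?_
          have := h e
          have h3 : bd M n e = - dl M α φ e := by linarith
          nth_rw 2 [h3]
          ring
      _ = 0 := by rw [h1, neg_zero]
  have h3 : ∀ e, bd M n e = 0 := by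
    intro e
    have := (Finset.sum_eq_zero_iff_of_nonneg fun e _ => mul_self_nonneg (bd M n e)).1 h2 e
      (Finset.mem_univ _)
    exact mul_self_eq_zero.1 this
  exact ⟨h3, fun e => by have := h e; rw [h3 e, zero_add] at this; exact this⟩

/-- **Exactness**: every cycle is a boundary. -/
theorem exists_bd (hM : M.Sph) {x : Fin 3 × B → ℝ} (hx : IsCyc M x) : ∃ n : W → ℝ, x = bd M n := by
  classical
  rcases isEmpty_or_nonempty B with hB | ⟨⟨b0⟩⟩
  · refine ⟨fun _ => 0, funext fun e => (hB.false e.2).elim⟩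
  set w0 : W := M.e 0 b0
  let Ψ : ((W → ℝ) × ((B → ℝ) × (V → ℝ))) →ₗ[ℝ] ((Fin 3 × B → ℝ) × (ℝ × ℝ)) :=
    LinearMap.prod
      ((bdL M).comp (LinearMap.fst ℝ _ _) + (dlL M).comp (LinearMap.snd ℝ _ _))
      (LinearMap.prod ((LinearMap.proj w0).comp (LinearMap.fst ℝ _ _))
        ((LinearMap.proj b0).comp ((LinearMap.fst ℝ _ _).comp (LinearMap.snd ℝ _ _))))
  have hinj : Function.Injective Ψ := by
    rw [injective_iff_map_eq_zero]
    rintro ⟨n, α, φ⟩ h
    have h1 : (fun e => bd M n e + dl M α φ e) = 0 := congrArg Prod.fst h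
    have h2 : n w0 = 0 := congrArg (fun z => z.2.1) h
    have h3 : α b0 = 0 := congrArg (fun z => z.2.2) h
    obtain ⟨h4, h5⟩ := bd_add_dl_eq_zero M n α φ (fun e => congrFun h1 e)
    have hn : n = 0 := funext fun w => (bd_const M hM.conn n h4 w w0).trans h2
    have hα : α = 0 := funext fun b => (dl_const M hM.conn α φ h5 b b0).trans h3
    have hφ : φ = 0 := by
      funext v
      obtain ⟨j, b, rfl⟩ := M.surj v
      have := h5 (j, b)
      unfold dl at this
      rw [hα] at this
      simpa using this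
    rw [hn, hα, hφ]
    rfl
  have hW : Fintype.card W = Fintype.card B := (Fintype.card_congr (M.e 0)).symm
  have hdim : Module.finrank ℝ ((W → ℝ) × ((B → ℝ) × (V → ℝ))) =
      Module.finrank ℝ ((Fin 3 × B → ℝ) × (ℝ × ℝ)) := by
    rw [Module.finrank_prod, Module.finrank_prod, Module.finrank_prod, Module.finrank_prod,
      Module.finrank_fintype_fun_eq_card, Module.finrank_fintype_fun_eq_card,
      Module.finrank_fintype_fun_eq_card, Module.finrank_fintype_fun_eq_card,
      Module.finrank_self, Fintype.card_prod, Fintype.card_fin, hW, hM.card]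
    ring
  have hsurj : Function.Surjective Ψ :=
    (LinearMap.injective_iff_surjective_of_finrank_eq_finrank hdim).1 hinj
  obtain ⟨⟨n, α, φ⟩, h⟩ := hsurj (x, (0, 0))
  have h1 : (fun e => bd M n e + dl M α φ e) = x := congrArg Prod.fst h
  have h2 : ∀ e, x e = bd M n e + dl M α φ e := fun e => (congrFun h1 e).symm
  have h3 : ∑ e, dl M α φ e * dl M α φ e = 0 := by
    have h4 := hx.orth α φ
    have h5 := (bd_isCyc M n).orth α φ
    calc ∑ e, dl M α φ e * dl M α φ e = ∑ e, x e * dl M α φ e - ∑ e, bd M n e * dl M α φ e := by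
          rw [← Finset.sum_sub_distrib]
          exact Finset.sum_congr rfl fun e _ => by rw [h2 e]; ring
      _ = 0 := by rw [h4, h5, sub_zero]
  refine ⟨n, funext fun e => ?_⟩
  have h6 := (Finset.sum_eq_zero_iff_of_nonneg fun e _ => mul_self_nonneg (dl M α φ e)).1 h3 e
    (Finset.mem_univ _)
  rw [h2 e, mul_self_eq_zero.1 h6, add_zero]

end Basic

end Vale.Agent.P039.H419
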