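import Vale.Agent.P039.H419.Count

/-! The main statement on a simple cycle of the corner graph: Step 2 and the sign formula. -/

namespace Vale.Agent.P039.H419

open Vale.Agent.P039.Bn

variable {B W V : Type} [Fintype B] [Fintype W] [Fintype V] [DecidableEq B] [DecidableEq W]
  [DecidableEq V]

/-- `1 ↦ 1`, `2 ↦ -1`, `0 ↦ 0` -/
def eps (i : Fin 3) : ℤ := if i = 1 then 1 else if i = 2 then -1 else 0

def b2i (x : Bool) : ℤ := if x then 1 else 0

/-- the contribution of a black vertex to `3 |I| - 3 |EI| + 6 |BI|` -/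
def term (x : Fin 3 → Bool) : ℤ :=
  (b2i (x 0) + b2i (x 1) + b2i (x 2)) -
    3 * (b2i (x (0 + 1) || x (0 + 2)) + b2i (x (1 + 1) || x (1 + 2)) + b2i (x (2 + 1) || x (2 + 2)))
    + 6 * b2i (x 0 || x 1 || x 2)

theorem term_const : ∀ x : Fin 3 → Bool, (∀ i i', x i = true → x i' = true) → term x = 0 := by
  decide

theorem term_up : ∀ (x : Fin 3 → Bool) (i k : Fin 3), i ≠ k → x (i + 1) = true →
    x (i + 2) = false → (k = i + 1 → x i = true) → (k = i + 2 → x i = false) →
    term x = - eps (k - i) := by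
  decide

theorem term_dn : ∀ (x : Fin 3 → Bool) (i k : Fin 3), i ≠ k → x (i + 1) = false →
    x (i + 2) = true → (k = i + 1 → x i = false) → (k = i + 2 → x i = true) →
    term x = eps (k - i) := by
  decide

section

variable {M : PMap B W V} {S : Finset B} {f g : B → Fin 3} {π : Equiv.Perm B} {I : Finset W}

theorem b2i_decide (p : Prop) [Decidable p] : b2i (decide p) = if p then 1 else 0 := by
  unfold b2i
  by_cases h : p <;> simp [h]

theorem sum_term : ∑ b : B, term (fun i => decide (M.e i b ∈ I)) =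
    3 * (I.card : ℤ) - 3 * ((EI M I).card : ℤ) + 6 * ((BI M I).card : ℤ) := by
  have hI : ∀ i : Fin 3, ∑ b : B, b2i (decide (M.e i b ∈ I)) = (I.card : ℤ) := by
    intro i
    rw [Equiv.sum_comp (M.e i) (fun w => b2i (decide (w ∈ I)))]
    simp only [b2i_decide]
    rw [Finset.sum_ite_mem, Finset.univ_inter, Finset.sum_const, nsmul_eq_mul, mul_one]
  have hE : ∑ b : B, (b2i (decide (M.e (0 + 1) b ∈ I) || decide (M.e (0 + 2) b ∈ I)) +
      b2i (decide (M.e (1 + 1) b ∈ I) || decide (M.e (1 + 2) b ∈ I)) +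
      b2i (decide (M.e (2 + 1) b ∈ I) || decide (M.e (2 + 2) b ∈ I))) = ((EI M I).card : ℤ) := by
    unfold EI
    rw [Finset.card_filter, Nat.cast_sum, Fintype.sum_prod_type_right]
    refine Finset.sum_congr rfl fun b _ => ?_
    rw [Fin.sum_univ_three]
    simp only [← Bool.decide_or, b2i_decide, Nat.cast_ite, Nat.cast_one, Nat.cast_zero]
  have hB : ∑ b : B, b2i (decide (M.e 0 b ∈ I) || decide (M.e 1 b ∈ I) || decide (M.e 2 b ∈ I)) =
      ((BI M I).card : ℤ) := by
    unfold BI
    rw [Finset.card_filter, Nat.cast_sum]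
    refine Finset.sum_congr rfl fun b _ => ?_
    simp only [← Bool.decide_or, b2i_decide, Nat.cast_ite, Nat.cast_one, Nat.cast_zero]
    congr 1
    rw [Fin.exists_fin_succ, Fin.exists_fin_two]
    simp [or_assoc]
  unfold term
  rw [Finset.sum_add_distrib, Finset.sum_sub_distrib, ← Finset.mul_sum, ← Finset.mul_sum, hE, hB,
    Finset.sum_add_distrib, Finset.sum_add_distrib, hI, hI, hI]
  ring

theorem sum_term_S (hs : Sides M S f g I) :
    ∑ b : B, term (fun i => decide (M.e i b ∈ I)) =
      ∑ b ∈ S, term (fun i => decide (M.e i b ∈ I)) := by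
  refine (Finset.sum_subset (Finset.subset_univ S) ?_).symm
  intro b _ hb
  apply term_const
  intro i i' h1
  exact decide_eq_true (hs.off b hb i i' (of_decide_eq_true h1))

/-- **Step 2 and the sign formula in one identity.** -/
theorem sum_eps (hM : M.Sph) (h : Cy M S f g π) (hs : Sides M S f g I) {b1 : B} (hb1 : b1 ∈ S)
    (hbal : (BI M I).card = (VI M I).card) (s : ℤ)
    (hsgn : s = 1 ∧ (∀ b ∈ S, M.e (f b + 1) b ∈ I) ∨ s = -1 ∧ (∀ b ∈ S, M.e (f b + 1) b ∉ I)) :
    ∑ b ∈ S, eps (g b - f b) = -3 * s := by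
  have h1 := side_eq hM h hs hb1
  have h2 : ∑ b ∈ S, term (fun i => decide (M.e i b ∈ I)) = 3 := by
    rw [← sum_term_S hs, sum_term]
    omega
  rcases hsgn with ⟨rfl, h3⟩ | ⟨rfl, h3⟩
  · have h4 : ∀ b ∈ S, term (fun i => decide (M.e i b ∈ I)) = - eps (g b - f b) := by
      intro b hb
      have h5 := h3 b hb
      have h6 := (hs.onF b hb).1 h5
      apply term_up _ _ _ (h.ne b hb) (decide_eq_true h5) (decide_eq_false h6)
      · intro h7
        have h8 := hs.third b hb (f b + 2) (by generalize f b = x; revert x; decide)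
          (by rw [h7]; generalize f b = x; revert x; decide)
        rw [f21, f22] at h8
        exact decide_eq_true (h8.2 h5)
      · intro h7
        have h8 := hs.third b hb (f b + 1) (by generalize f b = x; revert x; decide)
          (by rw [h7]; generalize f b = x; revert x; decide)
        rw [f11, f12] at h8
        exact decide_eq_false (fun h9 => h6 (h8.2 h9))
    rw [Finset.sum_congr rfl h4, Finset.sum_neg_distrib] at h2
    linarith
  · have h4 : ∀ b ∈ S, term (fun i => decide (M.e i b ∈ I)) = eps (g b - f b) := by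
      intro b hb
      have h5 := h3 b hb
      have h6 : M.e (f b + 2) b ∈ I := by
        by_contra h7
        exact h5 ((hs.onF b hb).2 h7)
      apply term_dn _ _ _ (h.ne b hb) (decide_eq_false h5) (decide_eq_true h6)
      · intro h7
        have h8 := hs.third b hb (f b + 2) (by generalize f b = x; revert x; decide)
          (by rw [h7]; generalize f b = x; revert x; decide)
        rw [f21, f22] at h8
        exact decide_eq_false (fun h9 => h5 (h8.1 h9))
      · intro h7
        have h8 := hs.third b hb (f b + 1) (by generalize f b = x; revert x; decide)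
          (by rw [h7]; generalize f b = x; revert x; decide)
        rw [f11, f12] at h8
        exact decide_eq_true (h8.1 h6)
    rw [Finset.sum_congr rfl h4] at h2
    linarith

/-- From the 2-chain to the sides. -/
theorem exists_sides (hM : M.Sph) (h : Cy M S f g π) {b1 : B} (hb1 : b1 ∈ S) {b0 : B}
    (hb0 : b0 ∉ S) :
    ∃ (I : Finset W) (s : ℤ), (s = 1 ∧ (∀ b ∈ S, M.e (f b + 1) b ∈ I) ∨
      s = -1 ∧ (∀ b ∈ S, M.e (f b + 1) b ∉ I)) ∧
      (∀ i, M.e i b0 ∉ I) ∧ Sides M S f g I ∧ ∀ e, xC S f g e = s * bd M (ind I) e := by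
  obtain ⟨n, hn⟩ := exists_bd M hM h.isCyc
  set a := n (M.e (f b1 + 1) b1) with ha
  have htwo := h.two hM.conn hn hb1
  have hlev : ∀ b ∈ S, n (M.e (f b + 1) b) = a := fun b hb => h.level' hn hb1 hb
  -- sides from the chain
  have hside : ∀ (I : Finset W) (s : ℤ), s * s = 1 → (∀ e, xC S f g e = s * bd M (ind I) e) →
      Sides M S f g I := by
    intro I s hss hx
    have hs0 : (s : ℝ) ≠ 0 := by
      intro h0
      have : s = 0 := by exact_mod_cast h0
      rw [this] at hss
      omega
    have hzero : ∀ j b, xC S f g (j, b) = 0 → (M.e (j + 1) b ∈ I ↔ M.e (j + 2) b ∈ I) := by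
      intro j b h0
      rw [hx] at h0
      have h1 : bd M (ind I) (j, b) = 0 := (mul_eq_zero.1 h0).resolve_left hs0
      unfold bd ind at h1
      simp only at h1
      by_cases h2 : M.e (j + 1) b ∈ I <;> by_cases h3 : M.e (j + 2) b ∈ I <;>
        simp [h2, h3] at h1 ⊢
    have hone : ∀ j b, xC S f g (j, b) ≠ 0 → (M.e (j + 1) b ∈ I ↔ M.e (j + 2) b ∉ I) := by
      intro j b h0
      rw [hx] at h0
      unfold bd ind at h0
      simp only at h0
      by_cases h2 : M.e (j + 1) b ∈ I <;> by_cases h3 : M.e (j + 2) b ∈ I <;>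
        simp [h2, h3] at h0 ⊢
    refine ⟨?_, ?_, ?_, ?_⟩
    · intro b hb i i' h1
      have h2 : ∀ j, bd M (ind I) (j, b) = 0 := by
        intro j
        have h3 := hx (j, b)
        rw [xC_off hb] at h3
        exact (mul_eq_zero.1 h3.symm).resolve_left hs0
      have h3 := bd_at M (ind I) b h2 i i'
      unfold ind at h3
      by_contra h4
      simp [h1, h4] at h3
    · intro b hb
      apply hone
      rw [xC_f hb (h.ne b hb)]
      norm_num
    · intro b hb
      apply hone
      rw [xC_g hb (h.ne b hb)]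
      norm_num
    · intro b hb j h1 h2
      exact hzero j b (xC_h h1 h2)
  have h0 := htwo (M.e 0 b0)
  have hall : ∀ i, n (M.e i b0) = n (M.e 0 b0) :=
    fun i => bd_at M n b0 (fun j => by rw [← hn]; exact xC_off hb0 j) i 0
  rcases h0 with h0 | h0
  · -- outside value `a`
    refine ⟨Finset.univ.filter fun w => n w ≠ a, -1, Or.inr ⟨rfl, ?_⟩, ?_, ?_⟩
    · intro b hb
      simp [hlev b hb]
    · intro i
      simp [hall i, h0, ha]
    · have hx : ∀ e, xC S f g e = ((-1 : ℤ) : ℝ) *
          bd M (ind (Finset.univ.filter fun w => n w ≠ a)) e := by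
        intro e
        have h1 : ∀ w, n w = a - ind (Finset.univ.filter fun w => n w ≠ a) w := by
          intro w
          unfold ind
          by_cases h2 : n w = a
          · simp [h2]
          · have h3 := (htwo w).resolve_left h2
            simp [h2]
            exact h3
        rw [hn]
        unfold bd
        rw [h1 (M.e (e.1 + 1) e.2), h1 (M.e (e.1 + 2) e.2)]
        push_cast
        ring
      exact ⟨hside _ _ (by norm_num) hx, hx⟩
  · refine ⟨Finset.univ.filter fun w => n w = a, 1, Or.inl ⟨rfl, ?_⟩, ?_, ?_⟩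
    · intro b hb
      simp [hlev b hb]
    · intro i
      simp only [Finset.mem_filter, Finset.mem_univ, true_and]
      rw [hall i, h0]
      intro h1
      linarith
    · have hx : ∀ e, xC S f g e = ((1 : ℤ) : ℝ) *
          bd M (ind (Finset.univ.filter fun w => n w = a)) e := by
        intro e
        have h1 : ∀ w, n w = (a - 1) + ind (Finset.univ.filter fun w => n w = a) w := by
          intro w
          unfold ind
          by_cases h2 : n w = a
          · simp [h2]
          · have h3 := (htwo w).resolve_left h2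
            simp [h2]
            exact h3
        rw [hn]
        unfold bd
        rw [h1 (M.e (e.1 + 1) e.2), h1 (M.e (e.1 + 2) e.2)]
        push_cast
        ring
      exact ⟨hside _ _ (by norm_num) hx, hx⟩

/-- the circulation of `u` around a white vertex -/
def curl (M : PMap B W V) (u : Fin 3 × B → ℝ) (w : W) : ℝ :=
  ∑ i : Fin 3, (u (i + 2, (M.e i).symm w) - u (i + 1, (M.e i).symm w))

theorem stokes (u : Fin 3 × B → ℝ) (n : W → ℝ) :
    ∑ e, u e * bd M n e = ∑ w, n w * curl M u w := by
  have h1 : ∀ (i j : Fin 3), ∑ b, u (j, b) * n (M.e i b) =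
      ∑ w, u (j, (M.e i).symm w) * n w := by
    intro i j
    rw [← Equiv.sum_comp (M.e i) fun w => u (j, (M.e i).symm w) * n w]
    exact Finset.sum_congr rfl fun b _ => by rw [Equiv.symm_apply_apply]
  rw [Fintype.sum_prod_type, Fin.sum_univ_three]
  have h2 : ∀ j, ∑ b, u (j, b) * bd M n (j, b) =
      ∑ w, u (j, (M.e (j + 1)).symm w) * n w - ∑ w, u (j, (M.e (j + 2)).symm w) * n w := by
    intro j
    rw [← h1, ← h1, ← Finset.sum_sub_distrib]
    exact Finset.sum_congr rfl fun b _ => by unfold bd; ring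
  rw [h2, h2, h2, ← Finset.sum_sub_distrib, ← Finset.sum_sub_distrib, ← Finset.sum_sub_distrib,
    ← Finset.sum_add_distrib, ← Finset.sum_add_distrib]
  refine Finset.sum_congr rfl fun w _ => ?_
  unfold curl
  rw [Fin.sum_univ_three]
  have a01 : (0 : Fin 3) + 1 = 1 := rfl
  have a02 : (0 : Fin 3) + 2 = 2 := rfl
  have a11 : (1 : Fin 3) + 1 = 2 := rfl
  have a12 : (1 : Fin 3) + 2 = 0 := rfl
  have a21 : (2 : Fin 3) + 1 = 0 := rfl
  have a22 : (2 : Fin 3) + 2 = 1 := rfl
  rw [a01, a02, a11, a12, a21, a22]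
  ring

/-- **Main statement on a simple cycle** of the corner graph which is alternating for the matching
`m` (`m = f` on the cycle) of the black vertices other than `b0` with the faces not at `b0`. -/
theorem main (hM : M.Sph) (h : Cy M S f g π) (hS : S.Nonempty) (b0 : B) (hb0 : b0 ∉ S)
    (m : B → Fin 3) (hm : ∀ b ∈ S, m b = f b)
    (hinj : ∀ b b', b ≠ b0 → b' ≠ b0 → M.c (m b) b = M.c (m b') b' → b = b')
    (hR : ∀ b, b ≠ b0 → ∀ j, M.c j b0 ≠ M.c (m b) b)
    (hsurj : ∀ v, (∀ j, M.c j b0 ≠ v) → ∃ b, b ≠ b0 ∧ M.c (m b) b = v) :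
    ∃ (I : Finset W) (s : ℤ), (s = 1 ∨ s = -1) ∧ I.Nonempty ∧ (∀ i, M.e i b0 ∉ I) ∧
      ∑ b ∈ S, eps (g b - f b) = -3 * s ∧
      ∀ u : Fin 3 × B → ℝ, ∑ b ∈ S, (u (f b, b) - u (g b, b)) = s * ∑ w ∈ I, curl M u w := by
  obtain ⟨b1, hb1⟩ := hS
  obtain ⟨I, s, hs1, hs2, hs3, hs4⟩ := exists_sides hM h hb1 hb0
  have hbal := balanced h hs3 b0 m hs2 hb0 hm hinj hR hsurj
  refine ⟨I, s, ?_, ?_, hs2, sum_eps hM h hs3 hb1 hbal s hs1, ?_⟩
  · rcases hs1 with ⟨h1, _⟩ | ⟨h1, _⟩
    · exact Or.inl h1
    · exact Or.inr h1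
  · by_cases h1 : M.e (f b1 + 2) b1 ∈ I
    · exact ⟨_, h1⟩
    · exact ⟨_, (hs3.onF b1 hb1).2 h1⟩
  · intro u
    rw [← sum_xC]
    calc ∑ e, u e * xC S f g e = s * ∑ e, u e * bd M (ind I) e := by
          rw [Finset.mul_sum]
          exact Finset.sum_congr rfl fun e _ => by rw [hs4 e]; ring
      _ = s * ∑ w ∈ I, curl M u w := by
          rw [stokes]
          congr 1
          unfold ind
          simp only [ite_mul, one_mul, zero_mul]
          rw [Finset.sum_ite_mem, Finset.univ_inter]

end

end Vale.Agent.P039.H419
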