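import Vale.Agent.P039.H419.Two

/-! Euler's inequality for one side of a simple cycle, and the count of the corners of a cycle. -/

namespace Vale.Agent.P039.H419

open Vale.Agent.P039.Bn

variable {B W V : Type} [Fintype B] [Fintype W] [Fintype V] [DecidableEq B] [DecidableEq W]
  [DecidableEq V]

section

variable (M : PMap B W V)

/-- black vertices, faces and corners which touch `I` -/
def BI (I : Finset W) : Finset B := Finset.univ.filter fun b => ∃ i, M.e i b ∈ I
def VI (I : Finset W) : Finset V :=
  Finset.univ.filter fun v => ∃ j b, M.c j b = v ∧ M.e (j + 1) b ∈ I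
def EI (I : Finset W) : Finset (Fin 3 × B) :=
  Finset.univ.filter fun e => M.e (e.1 + 1) e.2 ∈ I ∨ M.e (e.1 + 2) e.2 ∈ I

/-- extension by zero -/
noncomputable def ext {X : Type} (P : Finset X) : (P → ℝ) →ₗ[ℝ] (X → ℝ) :=
  Function.ExtendByZero.linearMap ℝ (Subtype.val : P → X)

theorem ext_mem {X : Type} {P : Finset X} (f : P → ℝ) {x : X} (h : x ∈ P) :
    ext P f x = f ⟨x, h⟩ := by
  show Function.extend Subtype.val f 0 x = f ⟨x, h⟩
  exact Subtype.val_injective.extend_apply f 0 ⟨x, h⟩

theorem ext_notMem {X : Type} {P : Finset X} (f : P → ℝ) {x : X} (h : x ∉ P) :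
    ext P f x = 0 := by
  show Function.extend Subtype.val f 0 x = 0
  rw [Function.extend_apply']
  · rfl
  · rintro ⟨y, rfl⟩
    exact h y.2

variable {M}

/-- Euler's inequality for the closed region of `I`, which is assumed to be connected. -/
theorem euler_region (hM : M.Conn) (I : Finset W) {w1 : W} (hw1 : w1 ∉ I) (b1 : B)
    (hb1 : b1 ∈ BI M I)
    (hconn : ∀ (α : B → ℝ) (φ : V → ℝ), (∀ e ∈ EI M I, dl M α φ e = 0) → α b1 = 0 →
      (∀ b ∈ BI M I, α b = 0) ∧ ∀ v ∈ VI M I, φ v = 0) :
    I.card + (BI M I).card + (VI M I).card ≤ (EI M I).card + 1 := by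
  let Ψ : ((I → ℝ) × ((BI M I → ℝ) × (VI M I → ℝ))) →ₗ[ℝ] ((EI M I → ℝ) × ℝ) :=
    LinearMap.prod
      ((LinearMap.funLeft ℝ ℝ (Subtype.val : EI M I → Fin 3 × B)).comp
        ((bdL M).comp ((ext I).comp (LinearMap.fst ℝ _ _)) +
          (dlL M).comp ((LinearMap.prodMap (ext (BI M I)) (ext (VI M I))).comp
            (LinearMap.snd ℝ _ _))))
      ((LinearMap.proj (⟨b1, hb1⟩ : BI M I)).comp
        ((LinearMap.fst ℝ _ _).comp (LinearMap.snd ℝ _ _)))
  have hinj : Function.Injective Ψ := by
    rw [injective_iff_map_eq_zero]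
    rintro ⟨n, α, φ⟩ h
    have h1 : ∀ e : EI M I, bd M (ext I n) e.1 + dl M (ext _ α) (ext _ φ) e.1 = 0 :=
      fun e => congrFun (congrArg Prod.fst h) e
    have h2 : α ⟨b1, hb1⟩ = 0 := congrArg Prod.snd h
    have h0 : ∀ e, e ∉ EI M I → bd M (ext I n) e = 0 := by
      intro e he
      simp only [EI, Finset.mem_filter, Finset.mem_univ, true_and, not_or] at he
      unfold bd
      rw [ext_notMem _ he.1, ext_notMem _ he.2, sub_zero]
    have h3 := (bd_isCyc M (ext I n)).orth (ext _ α) (ext _ φ)
    have h4 : ∑ e, bd M (ext I n) e * bd M (ext I n) e = 0 := by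
      calc ∑ e, bd M (ext I n) e * bd M (ext I n) e
          = - ∑ e, bd M (ext I n) e * dl M (ext _ α) (ext _ φ) e := by
            rw [← Finset.sum_neg_distrib]
            refine Finset.sum_congr rfl fun e _ => ?_
            by_cases he : e ∈ EI M I
            · have := h1 ⟨e, he⟩
              have h5 : bd M (ext I n) e = - dl M (ext _ α) (ext _ φ) e := by
                simp only at this
                linarith
              nth_rw 2 [h5]
              ring
            · rw [h0 e he]; ring
        _ = 0 := by rw [h3, neg_zero]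
    have h5 : ∀ e, bd M (ext I n) e = 0 := fun e => mul_self_eq_zero.1
      ((Finset.sum_eq_zero_iff_of_nonneg fun e _ => mul_self_nonneg (bd M (ext I n) e)).1 h4 e
        (Finset.mem_univ _))
    have hn : n = 0 := by
      funext w
      have h6 := bd_const M hM (ext I n) h5 w.1 w1
      rw [ext_mem n w.2, ext_notMem n hw1] at h6
      exact h6
    obtain ⟨h6, h7⟩ := hconn (ext _ α) (ext _ φ) (fun e he => by
      have := h1 ⟨e, he⟩
      simp only [h5, zero_add] at this
      exact this) (by rw [ext_mem α hb1]; exact h2)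
    have hα : α = 0 := by
      funext b
      have := h6 b.1 b.2
      rw [ext_mem α b.2] at this
      exact this
    have hφ : φ = 0 := by
      funext v
      have := h7 v.1 v.2
      rw [ext_mem φ v.2] at this
      exact this
    rw [hn, hα, hφ]
    rfl
  have := LinearMap.finrank_le_finrank_of_injective hinj
  rw [Module.finrank_prod, Module.finrank_prod, Module.finrank_prod,
    Module.finrank_fintype_fun_eq_card, Module.finrank_fintype_fun_eq_card,
    Module.finrank_fintype_fun_eq_card, Module.finrank_fintype_fun_eq_card,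
    Module.finrank_self, Fintype.card_coe, Fintype.card_coe, Fintype.card_coe,
    Fintype.card_coe] at this
  omega

end

end Vale.Agent.P039.H419
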