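import Vale.Agent.P039.H419.Cyc

/-! The two sides of a simple cycle of the corner graph. -/

namespace Vale.Agent.P039.H419

open Vale.Agent.P039.Bn

variable {B W V : Type} [Fintype B] [Fintype W] [Fintype V] [DecidableEq B] [DecidableEq W]
  [DecidableEq V]

/-- `S` is the set of black vertices of a simple cycle of the corner graph: from the black vertex
`b` the cycle goes to its face `c (f b) b` and then to the black vertex `π b`, which it enters
through the corner `g (π b)`. -/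
structure Cy (M : PMap B W V) (S : Finset B) (f g : B → Fin 3) (π : Equiv.Perm B) : Prop where
  ne : ∀ b ∈ S, f b ≠ g b
  cyc : π.IsCycleOn (S : Set B)
  nxt : ∀ b ∈ S, M.c (g (π b)) (π b) = M.c (f b) b
  inj : ∀ b ∈ S, ∀ b' ∈ S, M.c (f b) b = M.c (f b') b' → b = b'

/-- the 1-chain of a cycle -/
def xC (S : Finset B) (f g : B → Fin 3) (e : Fin 3 × B) : ℝ :=
  if e.2 ∈ S then (if e.1 = f e.2 then 1 else 0) - (if e.1 = g e.2 then 1 else 0) else 0

def ind (I : Finset W) (w : W) : ℝ := if w ∈ I then 1 else 0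

section

variable {M : PMap B W V} {S : Finset B} {f g : B → Fin 3} {π : Equiv.Perm B}

theorem sum_xC (y : Fin 3 × B → ℝ) :
    ∑ e, y e * xC S f g e = ∑ b ∈ S, (y (f b, b) - y (g b, b)) := by
  rw [Fintype.sum_prod_type_right, ← Finset.sum_subset (Finset.subset_univ S)]
  · refine Finset.sum_congr rfl fun b hb => ?_
    unfold xC
    simp only [hb, if_true]
    simp only [mul_sub, Finset.sum_sub_distrib, mul_ite, mul_one, mul_zero, Finset.sum_ite_eq',
      Finset.mem_univ, if_true]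
  · intro b _ hb
    apply Finset.sum_eq_zero
    intro j _
    unfold xC
    simp only [hb, if_false, mul_zero]

theorem Cy.mapsTo (h : Cy M S f g π) {b : B} (hb : b ∈ S) : π b ∈ S :=
  h.cyc.1.mapsTo hb

theorem Cy.sum_pi (h : Cy M S f g π) (F : B → ℝ) : ∑ b ∈ S, F (π b) = ∑ b ∈ S, F b := by
  refine Finset.sum_nbij π (fun b hb => h.mapsTo hb) (π.injective.injOn) ?_ (fun _ _ => rfl)
  exact h.cyc.1.surjOn

theorem Cy.isCyc (h : Cy M S f g π) : IsCyc M (xC S f g) := by
  refine ⟨?_, ?_⟩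
  · intro b
    unfold xC
    by_cases hb : b ∈ S
    · simp only [hb, if_true, Finset.sum_sub_distrib, Finset.sum_ite_eq', Finset.mem_univ,
        sub_self]
    · simp only [hb, if_false, Finset.sum_const_zero]
  · intro φ
    rw [sum_xC (fun e => φ (M.c e.1 e.2)), Finset.sum_sub_distrib, sub_eq_zero,
      ← h.sum_pi (fun b => φ (M.c (g b) b))]
    exact Finset.sum_congr rfl fun b hb => by show φ _ = φ _; rw [h.nxt b hb]

/-- comparison of the two edges of the cycle at a face -/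
theorem Cy.face_rel (h : Cy M S f g π) (y : Fin 3 × B → ℝ)
    (hy : ∀ φ : V → ℝ, ∑ e : Fin 3 × B, φ (M.c e.1 e.2) * (y e * xC S f g e) = 0)
    {b : B} (hb : b ∈ S) : y (f b, b) = y (g (π b), π b) := by
  have h1 := hy (fun v => if v = M.c (f b) b then 1 else 0)
  have h2 : ∑ e : Fin 3 × B, (fun e : Fin 3 × B =>
      (if M.c e.1 e.2 = M.c (f b) b then (1 : ℝ) else 0) * y e) e * xC S f g e = 0 := by
    refine Eq.trans ?_ h1
    exact Finset.sum_congr rfl fun e _ => by show _ * _ * _ = _ * (_ * _); ring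
  rw [sum_xC, Finset.sum_sub_distrib, ← h.sum_pi (fun b' =>
    (if M.c (g b') b' = M.c (f b) b then (1 : ℝ) else 0) * y (g b', b'))] at h2
  have h3 : ∑ x ∈ S, (if M.c (f x) x = M.c (f b) b then (1 : ℝ) else 0) * y (f x, x)
      = y (f b, b) := by
    rw [Finset.sum_eq_single b]
    · rw [if_pos rfl, one_mul]
    · intro x hx hxb
      rw [if_neg (fun h' => hxb (h.inj x hx b hb h')), zero_mul]
    · intro h'
      exact absurd hb h'
  have h4 : ∑ x ∈ S, (if M.c (g (π x)) (π x) = M.c (f b) b then (1 : ℝ) else 0) * y (g (π x), π x)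
      = y (g (π b), π b) := by
    rw [Finset.sum_eq_single b]
    · rw [if_pos (h.nxt b hb), one_mul]
    · intro x hx hxb
      rw [h.nxt x hx, if_neg (fun h' => hxb (h.inj x hx b hb h')), zero_mul]
    · intro h'
      exact absurd hb h'
  linarith

theorem fin3_cases {i k : Fin 3} (h : i ≠ k) : k = i + 1 ∨ k = i + 2 := by
  revert i k; decide

theorem bd_i (n : W → ℝ) (i : Fin 3) (b : B) :
    bd M n (i, b) = n (M.e (i + 1) b) - n (M.e (i + 2) b) := rfl

theorem bd_i1 (n : W → ℝ) (i : Fin 3) (b : B) :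
    bd M n (i + 1, b) = n (M.e (i + 2) b) - n (M.e i b) := by
  unfold bd
  simp only [f11, f12]

theorem bd_i2 (n : W → ℝ) (i : Fin 3) (b : B) :
    bd M n (i + 2, b) = n (M.e i b) - n (M.e (i + 1) b) := by
  unfold bd
  simp only [f21, f22]

theorem xC_f {b : B} (hb : b ∈ S) (hne : f b ≠ g b) : xC S f g (f b, b) = 1 := by
  unfold xC
  simp [hb, hne]

theorem xC_g {b : B} (hb : b ∈ S) (hne : f b ≠ g b) : xC S f g (g b, b) = -1 := by
  unfold xC
  simp [hb, hne.symm]

theorem xC_h {b : B} {j : Fin 3} (h1 : j ≠ f b) (h2 : j ≠ g b) : xC S f g (j, b) = 0 := by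
  unfold xC
  simp [h1, h2]

theorem xC_off {b : B} (hb : b ∉ S) (j : Fin 3) : xC S f g (j, b) = 0 := by
  unfold xC
  simp [hb]

/-- the values at a black vertex of the cycle: one of the two patterns -/
theorem vals {n : W → ℝ} (hn : xC S f g = bd M n) {b : B} (hb : b ∈ S) (hne : f b ≠ g b) :
    n (M.e (f b + 2) b) = n (M.e (f b + 1) b) - 1 ∧
    ((g b = f b + 1 ∧ n (M.e (f b) b) = n (M.e (f b + 1) b)) ∨
      (g b = f b + 2 ∧ n (M.e (f b) b) = n (M.e (f b + 1) b) - 1)) := by
  have h1 : bd M n (f b, b) = 1 := by rw [← hn]; exact xC_f hb hne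
  have h2 : bd M n (g b, b) = -1 := by rw [← hn]; exact xC_g hb hne
  rw [bd_i] at h1
  refine ⟨by linarith, ?_⟩
  rcases fin3_cases hne with h | h
  · left
    rw [h, bd_i1] at h2
    exact ⟨h, by linarith⟩
  · right
    rw [h, bd_i2] at h2
    exact ⟨h, by linarith⟩

theorem Cy.level (h : Cy M S f g π) {n : W → ℝ} (hn : xC S f g = bd M n) {b : B} (hb : b ∈ S) :
    n (M.e (f (π b) + 1) (π b)) = n (M.e (f b + 1) b) := by
  have key : ∀ b ∈ S, n (M.e (f b + 1) b) + n (M.e (f b + 2) b) = 2 * n (M.e (f b + 1) b) - 1 ∧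
      n (M.e (g b + 1) b) + n (M.e (g b + 2) b) = 2 * n (M.e (f b + 1) b) - 1 := by
    intro b hb
    obtain ⟨h1, h2⟩ := vals hn hb (h.ne b hb)
    refine ⟨by linarith, ?_⟩
    rcases h2 with ⟨h2, h3⟩ | ⟨h2, h3⟩
    · rw [h2, f11, f12]; linarith
    · rw [h2, f21, f22]; linarith
  have h1 := h.face_rel (fun e => n (M.e (e.1 + 1) e.2) + n (M.e (e.1 + 2) e.2)) (by
    intro φ
    rw [hn, ← bd_col M (fun w => n w * n w) φ]
    refine Finset.sum_congr rfl fun e _ => ?_
    unfold bd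
    ring) hb
  have h2 := (key b hb).1
  have h3 := (key _ (h.mapsTo hb)).2
  simp only at h1
  linarith

theorem Cy.level' (h : Cy M S f g π) {n : W → ℝ} (hn : xC S f g = bd M n) {b b' : B} (hb : b ∈ S)
    (hb' : b' ∈ S) : n (M.e (f b' + 1) b') = n (M.e (f b + 1) b) := by
  have key : ∀ (m : ℕ), (π ^ m) b ∈ S ∧
      n (M.e (f ((π ^ m) b) + 1) ((π ^ m) b)) = n (M.e (f b + 1) b) := by
    intro m
    induction m with
    | zero => exact ⟨hb, rfl⟩
    | succ m ih =>
      rw [pow_succ', Equiv.Perm.mul_apply]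
      exact ⟨h.mapsTo ih.1, (h.level hn ih.1).trans ih.2⟩
  obtain ⟨m, hm⟩ := (h.cyc.2 hb hb').exists_nat_pow_eq
  have := (key m).2
  rwa [hm] at this

/-- **Two values**: the 2-chain of a simple cycle takes exactly the values `a` and `a - 1`. -/
theorem Cy.two (h : Cy M S f g π) (hM : M.Conn) {n : W → ℝ} (hn : xC S f g = bd M n) {b1 : B}
    (hb1 : b1 ∈ S) (w : W) :
    n w = n (M.e (f b1 + 1) b1) ∨ n w = n (M.e (f b1 + 1) b1) - 1 := by
  set a := n (M.e (f b1 + 1) b1) with ha
  have onS : ∀ b ∈ S, ∀ i, n (M.e i b) = a ∨ n (M.e i b) = a - 1 := by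
    intro b hb i
    have h0 := h.level' hn hb1 hb
    obtain ⟨h1, h2⟩ := vals hn hb (h.ne b hb)
    rw [h0] at h1 h2
    rcases fcase i (f b) with h3 | h3 | h3
    · rw [h3]
      rcases h2 with ⟨_, h2⟩ | ⟨_, h2⟩
      · exact Or.inl h2
      · exact Or.inr h2
    · rw [h3]; exact Or.inl h0
    · rw [h3]; exact Or.inr h1
  have h1 := conn_induct M hM (fun b => ∀ i, n (M.e i b) = a ∨ n (M.e i b) = a - 1) (by
    intro b b' i i' hi hb j
    by_cases hb' : b' ∈ S
    · exact onS b' hb' j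
    · rw [bd_at M n b' (fun j => by rw [← hn]; exact xC_off hb' j) j i', ← hi]
      exact hb i) b1 ((M.e 0).symm w) (onS b1 hb1) 0
  rwa [Equiv.apply_symm_apply] at h1

end

end Vale.Agent.P039.H419
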